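import Vale.Agent.P298L47.Defs
import Vale.Agent.P298.H983.Null
import Vale.Agent.P298.H707.Glue6
import Vale.Agent.P298.StmtGlob
import Vale.Agent.P281.MF.Hol

/-!
# P298: comparison of the literal objects with those of the development
-/

namespace Vale.Agent.P298L47

open Filter Topology Metric Set Vale.Agent.P298

noncomputable section

variable {n : ℕ}

theorem mem_holAt {f : (Fin n → ℂ) → ℂ} : f ∈ HolAt (Fin n → ℂ) ↔ AnalyticAt ℂ f 0 := by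
  constructor
  · intro h
    have h' : ∀ᶠ x in 𝓝 (0 : Fin n → ℂ), DifferentiableAt ℂ f x := h
    obtain ⟨U, hU, hUo, h0⟩ := _root_.eventually_nhds_iff.1 h'
    exact P281.MF.analyticAt_of_differentiableOn hUo
      (fun x hx => (hU x hx).differentiableWithinAt) h0
  · intro h
    exact h.eventually_analyticAt.mono fun x hx => hx.differentiableAt

theorem holAt_eq : HolAt (Fin n → ℂ) = H941.An (Fin n → ℂ) := by
  ext f
  exact mem_holAt

theorem pder_eq {f : (Fin n → ℂ) → ℂ} {x : Fin n → ℂ} (hf : DifferentiableAt ℂ f x) (i : Fin n) :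
    pder i f x = pd i f x := by
  have h1 : HasDerivAt (fun s : ℂ => Function.update x i s) (Pi.single i (1 : ℂ)) (x i) :=
    hasDerivAt_update x i (x i)
  have h2 : HasFDerivAt f (fderiv ℂ f x) (Function.update x i (x i)) := by
    rw [Function.update_eq_self]
    exact hf.hasFDerivAt
  exact (h2.comp_hasDerivAt (x i) h1).deriv

theorem pder_ev {f : (Fin n → ℂ) → ℂ} (hf : AnalyticAt ℂ f 0) (i : Fin n) :
    pder i f =ᶠ[𝓝 0] pd i f :=
  hf.eventually_analyticAt.mono fun _ hx => pder_eq hx.differentiableAt i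

theorem pd_an {f : (Fin n → ℂ) → ℂ} (hf : AnalyticAt ℂ f 0) (j : Fin n) :
    AnalyticAt ℂ (pd j f) 0 := by
  have h1 : AnalyticAt ℂ (fderiv ℂ f) 0 := AnalyticAt.fderiv hf
  have h2 : AnalyticAt ℂ (fun L : (Fin n → ℂ) →L[ℂ] ℂ => L (Pi.single j 1)) (fderiv ℂ f 0) :=
    (ContinuousLinearMap.apply ℂ ℂ (Pi.single j (1 : ℂ) : Fin n → ℂ)).analyticAt _
  exact h2.comp_of_eq h1 rfl

theorem pder_an {f : (Fin n → ℂ) → ℂ} (hf : AnalyticAt ℂ f 0) (j : Fin n) :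
    AnalyticAt ℂ (pder j f) 0 :=
  (pd_an hf j).congr (pder_ev hf j).symm

theorem fderiv_zero_iff {f : (Fin n → ℂ) → ℂ} {x : Fin n → ℂ} :
    fderiv ℂ f x = 0 ↔ ∀ j, pd j f x = 0 := by
  constructor
  · intro h j
    simp [pd, h]
  · intro h
    apply ContinuousLinearMap.coe_injective
    refine (Pi.basisFun ℂ (Fin n)).ext fun j => ?_
    simpa [pd] using h j

/-- the two rings of functions -/
def e0 (n : ℕ) : HolAt (Fin n → ℂ) ≃ₐ[ℂ] H941.An (Fin n → ℂ) :=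
  Subalgebra.equivOfEq _ _ holAt_eq

theorem mem_null {f : HolAt (Fin n → ℂ)} : f ∈ Null (Fin n → ℂ) ↔ f.1 =ᶠ[𝓝 0] 0 :=
  RingHom.mem_ker.trans Germ.coe_eq

theorem codim_gen {A B : Type} [CommRing A] [Algebra ℂ A] [CommRing B] [Algebra ℂ B]
    (e : A ≃ₐ[ℂ] B) (N : Ideal A) (M : Ideal B) (h : ∀ a, a ∈ N ↔ e a ∈ M) (S : Set A)
    (T : Set (B ⧸ M)) (h1 : ∀ a ∈ S, Ideal.Quotient.mk M (e a) ∈ T)
    (h2 : ∀ b ∈ T, ∃ a ∈ S, Ideal.Quotient.mk M (e a) = b) :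
    codim (gen N S) = codim (Ideal.span T) := by
  have hM : M = N.map (e : A →+* B) := by
    apply le_antisymm
    · intro b hb
      obtain ⟨a, rfl⟩ := e.surjective b
      exact Ideal.mem_map_of_mem _ ((h a).2 hb)
    · rw [Ideal.map_le_iff_le_comap]
      intro a ha
      exact (h a).1 ha
  refine (Ideal.quotientEquivAlg _ _ (Ideal.quotientEquivAlg N M e hM) ?_).toLinearEquiv.rank_eq
  rw [gen, Ideal.map_span]
  congr 1
  ext b
  constructor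
  · intro hb
    obtain ⟨a, ha, rfl⟩ := h2 b hb
    exact ⟨_, ⟨a, ha, rfl⟩, rfl⟩
  · rintro ⟨_, ⟨a, ha, rfl⟩, rfl⟩
    exact h1 a ha

theorem milnor_eq {f : (Fin n → ℂ) → ℂ} (hf : AnalyticAt ℂ f 0) :
    milnor f = Module.rank ℂ (H941.O (Fin n → ℂ) ⧸ H941.Jd (fun i => pd i f) (pd_an hf)) := by
  refine codim_gen (e0 n) (Null (Fin n → ℂ)) (H941.nu (Fin n → ℂ)) (fun a => mem_null) _ _ ?_ ?_
  · rintro h ⟨i, hh⟩
    refine ⟨i, H941.mk_congr (pd_an hf i) (mem_holAt.1 h.2) ?_⟩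
    rw [← hh]
    exact (pder_ev hf i).symm
  · rintro _ ⟨i, rfl⟩
    exact ⟨⟨pder i f, mem_holAt.2 (pder_an hf i)⟩, ⟨i, rfl⟩,
      H941.mk_congr (pder_an hf i) (pd_an hf i) (pder_ev hf i)⟩

theorem milnor_iff {f : (Fin n → ℂ) → ℂ} (hf : AnalyticAt ℂ f 0) (d : ℕ) :
    Milnor f d ↔ milnor f = d := by
  rw [Milnor, H941.colength_iff (pd_an hf), milnor_eq hf]
  constructor
  · rintro ⟨h1, h2⟩
    rw [← h2, Module.finrank_eq_rank]
  · intro h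
    have h1 : Module.Finite ℂ (H941.O (Fin n → ℂ) ⧸ H941.Jd (fun i => pd i f) (pd_an hf)) := by
      rw [← Module.rank_lt_aleph0_iff, h]
      exact Cardinal.natCast_lt_aleph0
    exact ⟨h1, Module.finrank_eq_of_rank_eq h⟩

theorem punct_iff {f : (Fin n → ℂ) → ℂ} :
    (∀ᶠ x in 𝓝[≠] (0 : Fin n → ℂ), fderiv ℂ f x ≠ 0) ↔
      ∀ᶠ x in 𝓝 (0 : Fin n → ℂ), (∀ j, pd j f x = 0) → x = 0 := by
  rw [eventually_nhdsWithin_iff]
  refine eventually_congr (Eventually.of_forall fun x => ?_)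
  rw [← fderiv_zero_iff]
  exact not_imp_not

theorem finite_iff {f : (Fin n → ℂ) → ℂ} (hf : AnalyticAt ℂ f 0) :
    (∀ᶠ x in 𝓝[≠] (0 : Fin n → ℂ), fderiv ℂ f x ≠ 0) ↔ milnor f < Cardinal.aleph0 := by
  rw [punct_iff, Cardinal.lt_aleph0]
  constructor
  · intro h
    obtain ⟨d, hd⟩ := H983.exists_colength (s := fun i => pd i f) (pd_an hf) h
    exact ⟨d, (milnor_iff hf d).1 hd⟩
  · rintro ⟨d, hd⟩
    exact H707.crit_isolated hf ((milnor_iff hf d).2 hd)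

theorem pos_iff {f : (Fin n → ℂ) → ℂ} (hf : AnalyticAt ℂ f 0) :
    0 < milnor f ↔ fderiv ℂ f 0 = 0 := by
  rw [milnor_eq hf, rank_pos_iff_nontrivial, Ideal.Quotient.nontrivial_iff, fderiv_zero_iff]
  constructor
  · intro h j
    by_contra hj
    refine h (Ideal.eq_top_of_isUnit_mem _ (x := H941.mk (pd j f) (pd_an hf j))
      (Ideal.subset_span ⟨j, rfl⟩) ?_)
    exact (H941.isUnit_iff _).2 hj
  · intro h htop
    have h1 : H941.Jd (fun i => pd i f) (pd_an hf) ≤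
        RingHom.ker (H941.ev0 (Fin n → ℂ) : H941.O (Fin n → ℂ) →+* ℂ) := by
      refine Ideal.span_le.2 ?_
      rintro _ ⟨j, rfl⟩
      exact h j
    rw [htop] at h1
    have h2 := h1 (Submodule.mem_top (x := 1))
    rw [RingHom.mem_ker, map_one] at h2
    exact one_ne_zero h2

theorem isolated_iff {f : (Fin n → ℂ) → ℂ} (hf : f ∈ HolAt (Fin n → ℂ)) :
    IsolatedCrit f ↔ 0 < milnor f ∧ milnor f < Cardinal.aleph0 := by
  rw [IsolatedCrit, pos_iff (mem_holAt.1 hf), finite_iff (mem_holAt.1 hf)]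

theorem MuConstant.hol' {r : ℝ} {W : Set ((Fin n → ℂ) × ℂ)} {F : (Fin n → ℂ) × ℂ → ℂ}
    (h : MuConstant r W F) : IsHolFamily r fun x t => F (x, t) := fun t ht =>
  ⟨P281.MF.analyticAt_of_differentiableOn h.isOpen h.hol (h.axis ⟨rfl, ht⟩), h.zero t ht⟩

theorem MuConstant.an {r : ℝ} {W : Set ((Fin n → ℂ) × ℂ)} {F : (Fin n → ℂ) × ℂ → ℂ}
    (h : MuConstant r W F) {t : ℂ} (ht : t ∈ ball (0 : ℂ) r) :
    AnalyticAt ℂ (fun x => F (x, t)) 0 :=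
  AnalyticAt.comp_of_eq (g := F) (f := fun x : Fin n → ℂ => (x, t)) (h.hol' t ht).1
    (analyticAt_id.prod analyticAt_const) rfl

theorem MuConstant.exists_mu {r : ℝ} (hr : 0 < r) {W : Set ((Fin n → ℂ) × ℂ)}
    {F : (Fin n → ℂ) × ℂ → ℂ} (h : MuConstant r W F) :
    ∃ μ : ℕ, ∀ t ∈ ball (0 : ℂ) r, Milnor (fun x => F (x, t)) μ := by
  have h0 : (0 : ℂ) ∈ ball (0 : ℂ) r := mem_ball_self hr
  obtain ⟨d, hd⟩ := Cardinal.lt_aleph0.1 ((finite_iff (h.an h0)).1 (h.crit 0 h0).2)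
  exact ⟨d, fun t ht => (milnor_iff (h.an ht) d).2 ((h.mu t ht).trans hd)⟩

theorem rightTrivial_of {r : ℝ} (hr : 0 < r) {W : Set ((Fin n → ℂ) × ℂ)}
    {F : (Fin n → ℂ) × ℂ → ℂ} (hW : IsOpen W) (hax : {0} ×ˢ ball (0 : ℂ) r ⊆ W)
    (h : TopRightTrivial r fun x t => F (x, t)) : RightTrivial r W F := by
  obtain ⟨δ, hδ, hδr, Φ, h1, h2, h3⟩ := h
  have hc : Continuous fun p : (Fin n → ℂ) × ℂ => (p.1, (0 : ℂ)) := by fun_prop
  set S : Set ((Fin n → ℂ) × ℂ) :=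
    (Φ.source ∩ Φ ⁻¹' W) ∩ (W ∩ (fun p : (Fin n → ℂ) × ℂ => (p.1, (0 : ℂ))) ⁻¹' W) with hS
  have hSo : IsOpen S := (Φ.isOpen_inter_preimage hW).inter (hW.inter (hW.preimage hc))
  have hSs : S ⊆ Φ.source := fun p hp => hp.1.1
  have hax' : ∀ t ∈ ball (0 : ℂ) δ, ((0 : Fin n → ℂ), t) ∈ S := fun t ht => by
    have ht' : ((0 : Fin n → ℂ), t) ∈ W := hax ⟨rfl, ball_subset_ball hδr ht⟩
    refine ⟨⟨(h2 t ht).1, ?_⟩, ht', hax ⟨rfl, mem_ball_self hr⟩⟩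
    rw [mem_preimage, (h2 t ht).2]
    exact ht'
  refine ⟨δ, hδ, hδr, S, Φ '' S, hSo, Φ.isOpen_image_of_subset_source hSo hSs, ?_, ?_,
    Φ.homeomorphOfImageSubsetSource hSs rfl, fun p => ⟨(h3 p (hSs p.2)).1, ?_, p.2.2.2,
      ?_⟩⟩
  · rintro ⟨x, t⟩ ⟨hx, ht⟩
    obtain rfl : x = 0 := hx
    exact ⟨hax' t ht, _, hax' t ht, (h2 t ht).2⟩
  · rintro p (hp | ⟨q, hq, rfl⟩)
    · exact ⟨hp.2.1, mem_univ _, h1 p (hSs hp)⟩
    · refine ⟨hq.1.2, mem_univ _, ?_⟩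
      rw [(h3 q (hSs hq)).1]
      exact h1 q (hSs hq)
  · intro hp
    have h4 : (p : (Fin n → ℂ) × ℂ) = (0, p.1.2) := Prod.ext hp rfl
    have h5 : Φ p = (0, p.1.2) := by
      rw [h4]
      exact (h2 _ (h1 p (hSs p.2))).2
    exact congrArg Prod.fst h5
  · have h4 := (h3 p (hSs p.2)).2
    rw [← (h3 p (hSs p.2)).1] at h4
    exact h4

theorem sameType_of {W : Set ((Fin n → ℂ) × ℂ)} {F : (Fin n → ℂ) × ℂ → ℂ} (hW : IsOpen W)
    {s t : ℂ} (hs : ((0 : Fin n → ℂ), s) ∈ W) (ht : ((0 : Fin n → ℂ), t) ∈ W)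
    (h : TopRightEquiv (fun x => F (x, s)) fun x => F (x, t)) : SameType W F s t := by
  obtain ⟨φ, h0, h1, h2⟩ := h
  have hc : ∀ u : ℂ, IsOpen ((fun x : Fin n → ℂ => (x, u)) ⁻¹' W) := fun u =>
    hW.preimage (by fun_prop)
  set A : Set (Fin n → ℂ) := (φ.source ∩ φ ⁻¹' ((fun x : Fin n → ℂ => (x, t)) ⁻¹' W)) ∩
    (fun x : Fin n → ℂ => (x, s)) ⁻¹' W with hA
  have hAo : IsOpen A := (φ.isOpen_inter_preimage (hc t)).inter (hc s)
  have hAs : A ⊆ φ.source := fun p hp => hp.1.1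
  have hA0 : (0 : Fin n → ℂ) ∈ A := by
    refine ⟨⟨h0, ?_⟩, hs⟩
    rw [mem_preimage, h1]
    exact ht
  have key : ∀ x : A, F ((φ.homeomorphOfImageSubsetSource hAs rfl x).1, t) = F (x.1, s) :=
    fun x => h2 x (hAs x.2)
  refine ⟨A, φ '' A, hAo, φ.isOpen_image_of_subset_source hAo hAs, ?_,
    φ.homeomorphOfImageSubsetSource hAs rfl, hA0, h1, key, ?_⟩
  · rintro ⟨x, u⟩ (⟨hx, hu⟩ | ⟨⟨y, hy, hxy⟩, hu⟩)
    · obtain rfl : u = s := hu
      exact hx.2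
    · obtain rfl : u = t := hu
      obtain rfl : φ y = x := hxy
      exact hy.1.2
  · ext y
    constructor
    · rintro ⟨x, hx, rfl⟩
      exact (key x).trans hx
    · intro hy
      obtain ⟨x, rfl⟩ := (φ.homeomorphOfImageSubsetSource hAs rfl).surjective y
      exact ⟨x, (key x).symm.trans hy, rfl⟩

end

end Vale.Agent.P298L47
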