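import Mathlib

/-!
# P298: the objects of the problem, word for word
-/

namespace Vale.Agent.P298L47

open Filter Topology Metric Set

noncomputable section

/-- `dim_ℂ A / I`, a cardinal, for an ideal `I` of a commutative `ℂ`-algebra `A`. -/
def codim {A : Type} [CommRing A] [Algebra ℂ A] (I : Ideal A) : Cardinal := Module.rank ℂ (A ⧸ I)

/-- The ideal of `A / N` generated by the classes of the elements of `S`. -/
def gen {A : Type} [CommRing A] (N : Ideal A) (S : Set A) : Ideal (A ⧸ N) :=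
  Ideal.span (Ideal.Quotient.mk N '' S)

section germs

variable (E : Type) [NormedAddCommGroup E] [NormedSpace ℂ E]

/-- The functions on `E` that are holomorphic (complex differentiable) near `0`. -/
def HolAt : Subalgebra ℂ (E → ℂ) where
  carrier := {f | ∀ᶠ x in 𝓝 0, DifferentiableAt ℂ f x}
  mul_mem' := fun hf hg => (hf.and hg).mono fun _ h => h.1.mul h.2
  add_mem' := fun hf hg => (hf.and hg).mono fun _ h => h.1.add h.2
  algebraMap_mem' := fun c => Eventually.of_forall fun _ => differentiableAt_const c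

/-- Those whose germ at `0` is zero. -/
def Null : Ideal (HolAt E) :=
  RingHom.ker ((Germ.coeRingHom (𝓝 0)).comp (HolAt E).toSubsemiring.subtype)

/-- The ring `O` of germs at `0` of holomorphic functions on `E`. -/
abbrev O : Type := HolAt E ⧸ Null E

/-- `dim_ℂ O / (T)`, `(T)` the ideal generated by the germs of the holomorphic functions in `T`. -/
def colength (T : Set (E → ℂ)) : Cardinal :=
  codim (A := O E) (gen (A := HolAt E) (Null E) {h | h.1 ∈ T})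

variable {E}

/-- `0` is an isolated critical point of `f`. -/
def IsolatedCrit (f : E → ℂ) : Prop :=
  fderiv ℂ f 0 = 0 ∧ ∀ᶠ x in 𝓝[≠] 0, fderiv ℂ f x ≠ 0

end germs

/-- The partial derivative `∂f/∂xᵢ`. -/
def pder {n : ℕ} (i : Fin n) (f : (Fin n → ℂ) → ℂ) (x : Fin n → ℂ) : ℂ :=
  deriv (fun s => f (Function.update x i s)) (x i)

/-- The Milnor number `μ(f, 0) = dim_ℂ O / (∂f/∂x₁, …, ∂f/∂xₙ)`. -/
def milnor {n : ℕ} (f : (Fin n → ℂ) → ℂ) : Cardinal :=
  colength (Fin n → ℂ) (range fun i => pder i f)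

/-- `F` is holomorphic on the open neighbourhood `W` of `{0} × Δ`, `Δ` the disk `|t| < r`; each
`f_t = F(·, t)` vanishes at `0` and has an isolated critical point there; `μ(f_t) = μ(f_0)`. -/
structure MuConstant {n : ℕ} (r : ℝ) (W : Set ((Fin n → ℂ) × ℂ)) (F : (Fin n → ℂ) × ℂ → ℂ) :
    Prop where
  isOpen : IsOpen W
  axis : {0} ×ˢ ball (0 : ℂ) r ⊆ W
  hol : DifferentiableOn ℂ F W
  zero : ∀ t ∈ ball (0 : ℂ) r, F (0, t) = 0
  crit : ∀ t ∈ ball (0 : ℂ) r, IsolatedCrit fun x => F (x, t)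
  mu : ∀ t ∈ ball (0 : ℂ) r, milnor (fun x => F (x, t)) = milnor fun x => F (x, 0)

variable {X : Type} [TopologicalSpace X] [Zero X]

/-- Topological right-triviality: after shrinking the disk to `Δ'`, a homeomorphism
`Φ(x, t) = (φ_t(x), t)` of a neighbourhood `U` of `{0} × Δ'` in `X × Δ'` onto a neighbourhood
`V` of `{0} × Δ'` has `φ_t(0) = 0` and `f_t(φ_t(x)) = f_0(x)` on `U`; only values of `F` on `W`
are used. -/
def RightTrivial (r : ℝ) (W : Set (X × ℂ)) (F : X × ℂ → ℂ) : Prop :=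
  ∃ δ : ℝ, 0 < δ ∧ δ ≤ r ∧ ∃ U V : Set (X × ℂ), IsOpen U ∧ IsOpen V ∧
    {0} ×ˢ ball (0 : ℂ) δ ⊆ U ∩ V ∧ U ∪ V ⊆ W ∩ univ ×ˢ ball (0 : ℂ) δ ∧
    ∃ Φ : U ≃ₜ V, ∀ p : U, (Φ p).1.2 = p.1.2 ∧ (p.1.1 = 0 → (Φ p).1.1 = 0) ∧
      (p.1.1, 0) ∈ W ∧ F (Φ p).1 = F (p.1.1, 0)

/-- A homeomorphism germ `h` of `(X, 0)` with `f_t ∘ h = f_s`, and so
`h(f_s⁻¹(0)) = f_t⁻¹(0)`; only values of `F` on `W` are used. -/
def SameType (W : Set (X × ℂ)) (F : X × ℂ → ℂ) (s t : ℂ) : Prop :=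
  ∃ A B : Set X, IsOpen A ∧ IsOpen B ∧ A ×ˢ {s} ∪ B ×ˢ {t} ⊆ W ∧
    ∃ (h : A ≃ₜ B) (h0 : 0 ∈ A), (h ⟨0, h0⟩).1 = 0 ∧ (∀ x : A, F ((h x).1, t) = F (x.1, s)) ∧
      h '' {x | F (x.1, s) = 0} = {y | F (y.1, t) = 0}

end

end Vale.Agent.P298L47
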