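import Vale.Agent.P298L47.Br
import Vale.Agent.P298.H766.Plane

/-!
# P298: the Milnor number of the sum of squares is one
-/

namespace Vale.Agent.P298L47

open Filter Topology Metric Set Vale.Agent.P298

variable {n : ℕ}

theorem sq_an (x : Fin n → ℂ) : AnalyticAt ℂ (fun y : Fin n → ℂ => ∑ i, y i ^ 2) x :=
  Finset.analyticAt_fun_sum _ fun i _ =>
    ((ContinuousLinearMap.proj (R := ℂ) (φ := fun _ : Fin n => ℂ) i).analyticAt x).pow 2

theorem pd_sq (j : Fin n) (x : Fin n → ℂ) :
    pd j (fun y : Fin n → ℂ => ∑ i, y i ^ 2) x = 2 * x j := by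
  have h : HasFDerivAt (fun y : Fin n → ℂ => ∑ i, y i ^ 2)
      (∑ i, (2 * x i) • ContinuousLinearMap.proj (R := ℂ) (φ := fun _ : Fin n => ℂ) i) x := by
    refine HasFDerivAt.fun_sum fun i _ => ?_
    have h1 := (hasFDerivAt_apply (𝕜 := ℂ) i x).pow 2
    simpa using h1
  rw [pd, h.fderiv]
  simp [Pi.single_apply]

theorem isolated_sq : IsolatedCrit fun y : Fin n → ℂ => ∑ i, y i ^ 2 := by
  refine ⟨fderiv_zero_iff.2 fun j => by simp [pd_sq], punct_iff.2 ?_⟩
  refine Eventually.of_forall fun x hx => funext fun j => ?_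
  simpa [pd_sq] using hx j

theorem inIdeal_two {h : (Fin n → ℂ) → ℂ} :
    InIdeal (fun (i : Fin n) (x : Fin n → ℂ) => 2 * x i) h ↔
      InIdeal (fun (i : Fin n) (x : Fin n → ℂ) => x i) h := by
  constructor
  · rintro ⟨a, ha, e⟩
    refine ⟨fun j x => a j x * 2, fun j => AnalyticAt.mul (ha j) analyticAt_const, ?_⟩
    exact e.mono fun x hx => by simp only [hx, mul_assoc]
  · rintro ⟨a, ha, e⟩
    refine ⟨fun j x => a j x * 2⁻¹, fun j => AnalyticAt.mul (ha j) analyticAt_const, ?_⟩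
    refine e.mono fun x hx => ?_
    rw [hx]
    exact Finset.sum_congr rfl fun j _ => by ring

theorem milnor_sq : milnor (fun y : Fin n → ℂ => ∑ i, y i ^ 2) = 1 := by
  have h : Milnor (fun y : Fin n → ℂ => ∑ i, y i ^ 2) 1 := by
    have h1 : (fun i => pd i fun y : Fin n → ℂ => ∑ i, y i ^ 2) =
        fun (i : Fin n) (x : Fin n → ℂ) => 2 * x i := funext fun i => funext fun x => pd_sq i x
    obtain ⟨b, hb, h2⟩ := H766.colength_coord (n := n)
    rw [Milnor, h1]
    exact ⟨b, hb, fun f hf => by simpa only [inIdeal_two] using h2 f hf⟩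
  exact ((milnor_iff (sq_an 0) 1).1 h).trans Nat.cast_one

theorem muConstant_sq (r : ℝ) :
    MuConstant r univ fun p : (Fin n → ℂ) × ℂ => ∑ i, p.1 i ^ 2 where
  isOpen := isOpen_univ
  axis := subset_univ _
  hol := fun p _ =>
    ((sq_an p.1).differentiableAt.comp p differentiableAt_fst).differentiableWithinAt
  zero := fun _ _ => by simp
  crit := fun _ _ => isolated_sq
  mu := fun _ _ => rfl

end Vale.Agent.P298L47
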